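import Vale.Agent.P269CF.Spec
import Vale.Agent.P269CL.Pli
import Vale.Agent.P269CL.KeyRow
import Vale.Agent.P269CB.Main
import Vale.Agent.P269C.Chn

/-!
P269, block C: the degree of a metrized line bundle on a compact fibre (row FL).
-/

set_option autoImplicit false
set_option linter.all false

noncomputable section

namespace Vale.Agent.P269CN

open Set Filter MeasureTheory MvPolynomial Vale.Agent.P272.K Vale.Agent.P269C Vale.Agent.P269CF
open Vale.Agent.P269CG (tau_row)
open scoped Topology ContDiff Classical Matrix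

variable {D : ℕ}

/-- The fibre over `b` of the projection. -/
def io (b : Cm D) (y : Cm (0 + 1)) : Cm (D + 1) := sn b (y (Fin.last 0))

/-- The last coordinate. -/
def ka (x : Cm (D + 1)) : Cm (0 + 1) := fun _ => x (Fin.last D)

theorem io_last (b : Cm D) (y : Cm (0 + 1)) : io b y (Fin.last D) = y (Fin.last 0) :=
  Fin.snoc_last (α := fun _ => ℂ) _ _

theorem io_cast (b : Cm D) (y : Cm (0 + 1)) (k : Fin D) : io b y k.castSucc = b k :=
  Fin.snoc_castSucc (α := fun _ => ℂ) _ _ _

theorem pr_io (b : Cm D) (y : Cm (0 + 1)) : pr (io b y) = b := Fin.init_snoc _ _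

theorem ka_io (b : Cm D) (y : Cm (0 + 1)) : ka (io b y) = y := by
  funext i
  rw [ka, io_last, Fin.eq_zero i, Fin.eq_zero (Fin.last 0)]

theorem io_ka {b : Cm D} {x : Cm (D + 1)} (h : pr x = b) : io b (ka x) = x := by
  rw [← h]; exact Fin.snoc_init_self (α := fun _ => ℂ) x

theorem an_last (y : Cm (D + 1)) : AnalyticAt ℂ (fun x : Cm (D + 1) => x (Fin.last D)) y :=
  (ContinuousLinearMap.proj (R := ℂ) (φ := fun _ : Fin (D + 1) => ℂ) (Fin.last D)).analyticAt y

theorem io_an (b : Cm D) (y : Cm (0 + 1)) : AnalyticAt ℂ (io b) y := by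
  refine analyticAt_pi_iff.2 fun k => ?_
  refine Fin.lastCases ?_ (fun k => ?_) k
  · simp only [io_last]
    exact an_last y
  · simp only [io_cast]
    exact analyticAt_const

theorem ka_an (x : Cm (D + 1)) : AnalyticAt ℂ (ka (D := D)) x :=
  analyticAt_pi_iff.2 fun _ => an_last x

theorem io_sm (b : Cm D) : ContDiff ℝ ∞ (io b) :=
  contDiff_iff_contDiffAt.2 fun y => ((io_an b y).contDiffAt (n := ∞)).restrict_scalars ℝ

theorem supp_io {w : Cm (D + 1) → ℝ} {b : Cm D} {y : Cm (0 + 1)}
    (h : y ∈ tsupport fun x => w (io b x)) : io b y ∈ tsupport w :=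
  closure_minimal (t := io b ⁻¹' tsupport w) (fun x hx => subset_tsupport w hx)
    ((isClosed_tsupport w).preimage (io_sm b).continuous) h

theorem cpt_io {w : Cm (D + 1) → ℝ} (hw : HasCompactSupport w) (b : Cm D) :
    HasCompactSupport fun x => w (io b x) :=
  (hw.isCompact.image (continuous_iff_continuousAt.2 fun x =>
    (ka_an x).continuousAt)).of_isClosed_subset (isClosed_tsupport _)
    fun y hy => ⟨io b y, supp_io hy, ka_io b y⟩

theorem tau_one : tau (1 : Po 0) = 1 := by
  simp [tau]

theorem two_le' : (2 : WithTop ℕ∞) ≤ ∞ := WithTop.coe_le_coe.2 (le_top : (2 : ℕ∞) ≤ ⊤)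

theorem jac_io (b : Cm D) (y : Cm (0 + 1)) (k : Fin (D + 1)) :
    jac (io b) y k (Fin.last 0) = if k = Fin.last D then 1 else 0 := by
  refine Fin.lastCases ?_ (fun k => ?_) k
  · simp only [jac, Matrix.of_apply, io_last, P269CL.dz_coord, if_true]
  · simp only [jac, Matrix.of_apply, io_cast, if_neg (Fin.castSucc_ne_last k)]
    simp [dz]

theorem tau_io {v : Cm (D + 1) → ℝ} {b : Cm D} {y : Cm (0 + 1)} (h : ContDiffAt ℝ 2 v (io b y)) :
    tau (dd (fun x => v (io b x)) y) = cHess v (io b y) (Fin.last D) (Fin.last D) / Real.pi := by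
  rw [chn.ddn _ y v (io_an b y) h, dd, tau_row.fm]
  have h1 := tau_row.fib ((jac (io b) y)ᵀ * cHess v (io b y) * (jac (io b) y).map star) 1 y
  rw [map_one, mul_one, tau_one, mul_one] at h1
  rw [h1]
  simp only [Matrix.mul_apply, Matrix.transpose_apply, Matrix.map_apply, jac_io]
  simp [apply_ite]

theorem int_io (f : ℂ → ℂ) : ∫ y : Cm (0 + 1), f (y (Fin.last 0)) = ∫ t, f t :=
  (volume_preserving_funUnique (Fin 1) ℂ).integral_comp' f

theorem int_zero (c : ℂ) : ∫ _ : Cm 0, c = c := by
  simp [Measure.real, volume_pi, Measure.pi_of_empty]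

/-- Row FL. -/
theorem fl : FL := by
  intro X _ _ D π k e w v δ f b R Z hπ htr hw hone hZ hv
  let V : Fin k → Cm (0 + 1) → ℝ := fun j y =>
    v j (io b y) + Real.log (‖f j (y (Fin.last 0))‖ ^ 2)
  have hf : ∀ j y, io b y ∈ (e j).target →
      AnalyticAt ℂ (fun x : Cm (0 + 1) => f j (x (Fin.last 0))) y := fun j y hy =>
    AnalyticAt.comp (g := f j) (hv j _ hy).2.1 (an_last y)
  have hl : ∀ j y, io b y ∈ (e j).target →
      ContDiffAt ℝ ∞ (fun x : Cm (0 + 1) => Real.log (‖f j (x (Fin.last 0))‖ ^ 2)) y :=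
    fun j y hy => ((((hf j y hy).contDiffAt (n := ∞)).restrict_scalars ℝ).norm_sq ℝ).log
      (pow_ne_zero _ (norm_ne_zero_iff.2 (hv j _ hy).2.2.1))
  have hc : ∀ j y, io b y ∈ (e j).target → ContDiffAt ℝ ∞ (fun x => v j (io b x)) y :=
    fun j y hy => ContDiffAt.comp (g := v j) y (hv j _ hy).1 (io_sm b).contDiffAt
  have hV : ∀ j y, io b y ∈ (e j).target → ContDiffAt ℝ ∞ (V j) y :=
    fun j y hy => (hc j y hy).add (hl j y hy)
  have hR : ∀ j y, io b y ∈ (e j).target → (e j).symm (io b y) ∉ Z →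
      (if δ j then ‖y (Fin.last 0)‖ ^ 2 else 1) * Real.exp (V j y) = R ((e j).symm (io b y)) := by
    intro j y hy hz
    obtain ⟨-, -, h1, h2⟩ := hv j _ hy
    rw [Real.exp_add, Real.exp_log (pow_pos (norm_pos_iff.2 h1) 2)]
    refine Eq.trans ?_ (h2 hz).symm
    simp only [io]
    ring
  have hs : ∀ j y, (y ∈ tsupport fun x => w j (io b x)) → io b y ∈ (e j).target :=
    fun j y hy => (hw j).2.2 (supp_io hy)
  have hev : ∀ j y, io b y ∈ (e j).target → ∀ᶠ x in 𝓝 y, io b x ∈ (e j).target := fun j y hy =>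
    (io_sm b).continuous.continuousAt.eventually ((e j).open_target.mem_nhds hy)
  have hb : ∀ j y, io b y ∈ (e j).target → π ((e j).symm (io b y)) = b := fun j y hy => by
    rw [← hπ j _ ((e j).map_target hy), (e j).right_inv hy, pr_io]
  have hk : ∀ l p, π p = b → p ∈ (e l).source → ∀ x,
      (io b x ∈ (e l).target ∧ p = (e l).symm (io b x)) ↔ ka (e l p) = x := by
    intro l p hp hq x
    have h1 : io b (ka (e l p)) = e l p := io_ka ((hπ l p hq).trans hp)
    constructor
    · rintro ⟨h2, h3⟩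
      rw [h3, (e l).right_inv h2, ka_io]
    · rintro rfl
      rw [h1, (e l).left_inv hq]
      exact ⟨(e l).map_source hq, rfl⟩
  have key : ∀ ε > (0 : ℝ), ∑ j, ∫ y, (w j (io b y) : ℂ) * tau (dd (fun x => Real.log
      ((if δ j then ‖x (Fin.last 0)‖ ^ 2 else 1) * Real.exp (V j x) + ε)) y * 1) = 0 := by
    intro ε hε
    refine P269CL.key (0 + 1) (Fin k) (fun j y => w j (io b y)) _ (fun _ _ => 1)
      (fun j l y x => if io b y ∈ (e j).target ∧ io b x ∈ (e l).target ∧
        (e j).symm (io b y) = (e l).symm (io b x) then 1 else 0)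
      (fun j => ⟨(hw j).1.comp (io_sm b), cpt_io (hw j).2.1 b⟩) (fun j y hy => ?_)
      (fun j l y x => if_congr ⟨fun h => ⟨h.2.1, h.1, h.2.2.symm⟩,
        fun h => ⟨h.2.1, h.1, h.2.2.symm⟩⟩ rfl rfl) (fun j y hy => ?_) fun j l y₀ hy => ?_
    · filter_upwards [hev j y (hs j y hy)] with x hx
      refine ⟨?_, P269CB.gdc _ _ _ ((Gd.cst 1).congr (Eventually.of_forall fun _ => by simp))⟩
      have h4 := Real.exp_pos (V j x)
      split_ifs
      · exact (P269CL.cd_u (Fin.last 0) (hV j x hx).exp ε).log (by positivity)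
      · exact ((contDiffAt_const.mul (hV j x hx).exp).add contDiffAt_const).log (by positivity)
    · have h1 := hs j y hy
      rw [← hone _ (hb j y h1)]
      refine Finset.sum_congr rfl fun l _ => ?_
      split_ifs with h2
      · rw [finsum_eq_single _ (ka (e l ((e j).symm (io b y))))]
        · rw [if_pos ⟨h1, (hk l _ (hb j y h1) h2 _).2 rfl⟩, Nat.cast_one, one_mul,
            io_ka ((hπ l _ h2).trans (hb j y h1))]
        · intro x hx
          rw [if_neg fun h => hx ((hk l _ (hb j y h1) h2 x).1 h.2).symm, Nat.cast_zero, zero_mul]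
      · refine finsum_eq_zero_of_forall_eq_zero fun x => ?_
        rw [if_neg fun h => h2 (by rw [h.2.2]; exact (e l).map_target h.2.1), Nat.cast_zero,
          zero_mul]
    · have h1 := hs j y₀ hy
      have h3 : ContinuousAt (fun y => (e j).symm (io b y)) y₀ :=
        ContinuousAt.comp (g := (e j).symm) ((e j).continuousAt_symm h1)
          (io_sm b).continuous.continuousAt
      by_cases h2 : (e j).symm (io b y₀) ∈ (e l).source
      · have h4 := (hev j y₀ h1).and (h3.eventually ((e l).open_source.mem_nhds h2))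
        refine ⟨1, fun _ y => ka (e l ((e j).symm (io b y))), fun _ => (ka_an _).comp
          (AnalyticAt.comp (g := fun x => e l ((e j).symm x)) (htr j l _ h1 h2) (io_an b y₀)),
          ?_, fun _ _ => ?_⟩
        · filter_upwards [h4] with y h x _
          have h5 := hk l _ (hb j y h.1) h.2 x
          by_cases h6 : ka (e l ((e j).symm (io b y))) = x
          · rw [if_pos ⟨h.1, h5.2 h6⟩]; simp [h6]
          · rw [if_neg fun h7 => h6 (h5.1 h7.2)]; simp [h6]
        · have h5 : {y | io b y ∈ (e j).target ∧ (e j).symm (io b y) ∈ Z}.Finite := by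
            refine Finite.of_injOn (f := fun y => (e j).symm (io b y)) (fun y h => h.2)
              (fun y h y' h' e1 => ?_) hZ
            rw [← ka_io b y, (e j).symm.injOn h.1 h'.1 e1, ka_io]
          have h6 : ∀ᵐ y, y ∉ {y | io b y ∈ (e j).target ∧ (e j).symm (io b y) ∈ Z} :=
            h5.countable.ae_notMem _
          filter_upwards [mem_inf_of_left h4, mem_inf_of_right h6] with y h h7
          have h8 : (e j).symm (io b y) ∉ Z := fun h9 => h7 ⟨h.1, h9⟩
          obtain ⟨a1, a2⟩ := (hk l _ (hb j y h.1) h.2 _).2 rfl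
          refine ⟨?_, (map_one _).symm⟩
          rw [hR j y h.1 h8, hR l _ a1 (a2 ▸ h8), ← a2]
      · have h4 : IsCompact ((e l).symm '' tsupport (w l)) :=
          (hw l).2.1.isCompact.image_of_continuousOn ((e l).continuousOn_symm.mono (hw l).2.2)
        have h5 : (e j).symm (io b y₀) ∉ (e l).symm '' tsupport (w l) := by
          rintro ⟨x, hx, e1⟩
          exact h2 (e1 ▸ (e l).map_target ((hw l).2.2 hx))
        refine ⟨0, Fin.elim0, fun i => i.elim0, ?_, fun i => i.elim0⟩
        filter_upwards [h3.eventually (h4.isClosed.isOpen_compl.mem_nhds h5)] with y h x hx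
        rw [if_neg fun h7 => h ⟨_, supp_io hx, h7.2.2.symm⟩]
        simp
  have lim : Tendsto (fun ε : ℝ => ∑ j, ∫ y, (w j (io b y) : ℂ) * tau (dd (fun x => Real.log
      ((if δ j then ‖x (Fin.last 0)‖ ^ 2 else 1) * Real.exp (V j x) + ε)) y * 1)) (𝓝[>] 0)
      (𝓝 (∑ j, ((∫ y, (w j (io b y) : ℂ) * tau (dd (V j) y * 1)) +
        if δ j then (w j (sl b) : ℂ) else 0))) := by
    refine tendsto_finset_sum _ fun j _ => ?_
    have h1 := P269CL.pl_row 0 (fun y => w j (io b y)) (V j) (fun _ => 1)
      ((hw j).1.comp (io_sm b)) (cpt_io (hw j).2.1 b) fun y hy =>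
      ⟨hV j y (hs j y hy), fun _ => contDiffAt_const⟩
    split_ifs
    · have h2 : ∀ a : Cm 0, io b (sl a) = sl b := fun a => by rw [io, P269CL.sl_last]; rfl
      simpa only [h2, map_one, tau_one, mul_one, int_zero] using h1.1
    · simpa only [one_mul, add_zero] using h1.2
  have z := tendsto_nhds_unique lim (tendsto_const_nhds.congr'
    (eventually_mem_nhdsWithin.mono fun ε hε => (key ε hε).symm))
  rw [Finset.sum_add_distrib] at z
  rw [← eq_neg_of_add_eq_zero_left z]
  refine Finset.sum_congr rfl fun j _ => ?_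
  rw [← int_io]
  refine integral_congr_ae (Eventually.of_forall fun y => ?_)
  by_cases hy : io b y ∈ (e j).target
  · have h1 := (chn.dda _ _ y ((hc j y hy).of_le two_le') ((hl j y hy).of_le two_le')).1
    rw [chn.ddh _ y (hf j y hy) (hv j _ hy).2.2.1, add_zero] at h1
    have h2 : dd (V j) y = dd (fun x => v j (io b x)) y := h1
    simp only [mul_one, h2, tau_io ((hv j _ hy).1.of_le two_le')]
    rfl
  · have h0 : w j (io b y) = 0 := image_eq_zero_of_notMem_tsupport fun h => hy ((hw j).2.2 h)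
    have h0' : w j (sn b (y (Fin.last 0))) = 0 := h0
    simp only [h0, h0', Complex.ofReal_zero, zero_mul]

end Vale.Agent.P269CN
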