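import Vale.Agent.P269CM.Basn
import Vale.Agent.P269CP.Psi
import Vale.Agent.P269CK.Iso

/-!
P269, block C: the forms `lam` (row LAM).
-/

set_option autoImplicit false
set_option linter.all false

noncomputable section

namespace Vale.Agent.P269CN

open Set Filter Vale.Agent.P273.H183 Vale.Agent.P272.K Vale.Agent.P269C
open Vale.Agent.P269CP (two_le ev_B)
open scoped Topology ContDiff Matrix ComplexOrder

section Matrices

variable {m g : ℕ} {y : Cm m}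

theorem an_det {M : Cm m → Matrix (Fin g) (Fin g) ℂ}
    (h : ∀ p q, AnalyticAt ℂ (fun a => M a p q) y) : AnalyticAt ℂ (fun a => (M a).det) y := by
  simp only [Matrix.det_apply']
  exact Finset.analyticAt_fun_sum _ fun σ _ =>
    analyticAt_const.mul (Finset.analyticAt_fun_prod _ fun i _ => h _ _)

theorem an_inv {M : Cm m → Matrix (Fin g) (Fin g) ℂ}
    (h : ∀ p q, AnalyticAt ℂ (fun a => M a p q) y) (h0 : (M y).det ≠ 0) (p q : Fin g) :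
    AnalyticAt ℂ (fun a => (M a)⁻¹ p q) y := by
  simp only [Matrix.inv_def, Ring.inverse_eq_inv', Matrix.smul_apply, smul_eq_mul,
    Matrix.adjugate_apply]
  refine ((an_det h).inv h0).mul (an_det fun i j => ?_)
  simp only [Matrix.updateRow_apply]
  split_ifs
  · exact analyticAt_const
  · exact h _ _

/-- `A` maps a holomorphic vector with the value `v` to a holomorphic vector. -/
def Pr (A : Cm m → Matrix (Fin g) (Fin g) ℂ) (y : Cm m) (v : Fin g → ℂ) : Prop :=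
  ∃ n μ : Cm m → Fin g → ℂ, (∀ j, AnalyticAt ℂ (fun a => n a j) y) ∧
    (∀ j, AnalyticAt ℂ (fun a => μ a j) y) ∧ μ y = v ∧ ∀ᶠ a in 𝓝 y, n a = A a *ᵥ μ a

theorem an_of_pr {A : Cm m → Matrix (Fin g) (Fin g) ℂ} (S : Set (Fin g → ℂ))
    (hS : ∀ v ∈ S, Pr A y v) (hc : ∀ c : Fin g → ℂ, (∀ v ∈ S, ∑ k, c k * v k = 0) → c = 0)
    (p q : Fin g) : AnalyticAt ℂ (fun a => A a p q) y := by
  have h1 : Submodule.span ℂ S = ⊤ := by
    by_contra h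
    obtain ⟨f, hf, hk⟩ := Submodule.exists_le_ker_of_lt_top _ (lt_top_iff_ne_top.2 h)
    have h2 := hc (fun k => f fun j => if k = j then 1 else 0) fun v hv => by
      have h3 : f v = 0 := hk (Submodule.subset_span hv)
      rw [LinearMap.pi_apply_eq_sum_univ] at h3
      simpa only [smul_eq_mul, mul_comm] using h3
    refine hf (LinearMap.ext fun v => ?_)
    rw [LinearMap.pi_apply_eq_sum_univ]
    exact Finset.sum_eq_zero fun k _ => by rw [congrFun h2 k]; simp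
  have h2 : ∀ v, Pr A y v := fun v => by
    have hv : v ∈ Submodule.span ℂ S := h1 ▸ Submodule.mem_top
    induction hv using Submodule.span_induction with
    | mem v hv => exact hS v hv
    | zero => exact ⟨0, 0, fun _ => analyticAt_const, fun _ => analyticAt_const, rfl,
        Eventually.of_forall fun a => by simp⟩
    | add v w _ _ hv hw =>
      obtain ⟨n, μ, a1, a2, a3, a4⟩ := hv
      obtain ⟨n', μ', b1, b2, b3, b4⟩ := hw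
      refine ⟨n + n', μ + μ', fun j => (a1 j).add (b1 j), fun j => (a2 j).add (b2 j),
        by rw [← a3, ← b3]; rfl, ?_⟩
      filter_upwards [a4, b4] with a e1 e2
      rw [Pi.add_apply, Pi.add_apply, e1, e2, Matrix.mulVec_add]
    | smul c v _ hv =>
      obtain ⟨n, μ, a1, a2, a3, a4⟩ := hv
      refine ⟨c • n, c • μ, fun j => analyticAt_const.mul (a1 j),
        fun j => analyticAt_const.mul (a2 j), by rw [← a3]; rfl, ?_⟩
      filter_upwards [a4] with a e1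
      rw [Pi.smul_apply, Pi.smul_apply, e1, Matrix.mulVec_smul]
  choose n μ a1 a2 a3 a4 using fun l : Fin g => h2 (Pi.single l 1)
  let M : Cm m → Matrix (Fin g) (Fin g) ℂ := fun a => Matrix.of fun k l => μ l a k
  let N : Cm m → Matrix (Fin g) (Fin g) ℂ := fun a => Matrix.of fun k l => n l a k
  have hM : ∀ k l, AnalyticAt ℂ (fun a => M a k l) y := fun k l => a2 l k
  have hy : M y = 1 := by
    ext k l
    simp only [M, Matrix.of_apply, a3, Matrix.one_apply, Pi.single_apply]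
  have h0 : (M y).det ≠ 0 := by rw [hy, Matrix.det_one]; exact one_ne_zero
  have h3 : AnalyticAt ℂ (fun a => (N a * (M a)⁻¹) p q) y := by
    simp only [Matrix.mul_apply]
    exact Finset.analyticAt_fun_sum _ fun l _ => (a1 l p).mul (an_inv hM h0 l q)
  refine h3.congr ?_
  filter_upwards [eventually_all.2 a4, (an_det hM).continuousAt.eventually_ne h0] with a e1 e2
  have e3 : N a = A a * M a := by
    ext k l
    simp only [N, M, Matrix.of_apply, e1 l, Matrix.mul_apply, Matrix.mulVec, dotProduct]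
  rw [e3, Matrix.mul_nonsing_inv_cancel_right _ _ (Ne.isUnit e2)]

end Matrices

variable {L L₁ L₂ : Type} {m m₁ m₂ g : ℕ} {E : Fam L m} {C₁ : Fam L₁ m₁} {C₂ : Fam L₂ m₂}
  {φ₁ : Cm m → Cm m₁} {φ₂ : Cm m → Cm m₂} {Φ₁ : E.X → C₁.X} {Φ₂ : E.X → C₂.X}
  {e₁ : Fin g → Df C₁} {e₂ : Fin g → Df C₂} {y : Cm m}

/-- `A` is the matrix of the pull back of `e₁` in the pull back of `e₂`. -/
def Rl (E : Fam L m) (a : Cm m) (Φ₁ : E.X → C₁.X) (Φ₂ : E.X → C₂.X) (e₁ : Fin g → Df C₁)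
    (e₂ : Fin g → Df C₂) (A : Matrix (Fin g) (Fin g) ℂ) : Prop :=
  ∀ p ∈ E.fib a, ∀ z₁ z₂ c, Co E (fun q => z₁ (Φ₁ q)) p → Co E (fun q => z₂ (Φ₂ q)) p →
    Dr E (fun q => z₂ (Φ₂ q)) (fun q => z₁ (Φ₁ q)) p c →
    ∀ j, e₁ j z₁ (Φ₁ p) = c * ∑ k, A j k * e₂ k z₂ (Φ₂ p)

/-- `e` is the pull back of `e₁`. -/
def Tb (E : Fam L m) (a : Cm m) (Φ₁ : E.X → C₁.X) (e₁ : Fin g → Df C₁) (e : Fin g → Df E) : Prop :=
  Bas E a e ∧ ∀ p ∈ E.fib a, ∀ z z', Co E z p → (∀ q ∈ E.fib a, z q = z' (Φ₁ q)) →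
    ∀ j, e j z p = e₁ j z' (Φ₁ p)

theorem ex_rl {a : Cm m} {e e' : Fin g → Df E} (h : Tb E a Φ₁ e₁ e) (h' : Tb E a Φ₂ e₂ e') :
    ∃ A, Rl E a Φ₁ Φ₂ e₁ e₂ A := by
  choose A hA _ using fun j => h'.1.2 _ (h.1.1 j)
  refine ⟨Matrix.of A, fun p hp z₁ z₂ c c1 c2 hd j => ?_⟩
  rw [← h.2 p hp _ z₁ c1 (fun _ _ => rfl) j, hA j p hp _ c1, Finset.mul_sum]
  refine Finset.sum_congr rfl fun k _ => ?_
  rw [(h'.1.1 k p hp).1 _ _ c c1 c2 hd, h'.2 p hp _ z₂ c2 (fun _ _ => rfl) k, Matrix.of_apply]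
  ring

theorem tb_id {a : Cm m} {e : Fin g → Df E} (h : Bas E a e) : Tb E a id e e :=
  ⟨h, fun p hp z z' hz e1 j => (P269CM.Om.congr (h.1 j) hp hz fun q hq => (e1 q hq).symm).symm⟩

/-- Local holomorphic sections through smooth points. -/
theorem ex_sec (k2 : K2) (hE : E.IsStable) {p : E.X} {z : E.X → ℂ} (h1 : E.hol z p)
    (h2 : Co E z p) : ∃ σ : Cm m → E.X, σ (E.π p) = p ∧ Tendsto σ (𝓝 (E.π p)) (𝓝 p) ∧
      (∀ᶠ a in 𝓝 (E.π p), E.π (σ a) = a) ∧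
      ∀ f, E.hol f p → AnalyticAt ℂ (fun a => f (σ a)) (E.π p) := by
  obtain ⟨σ, s1, -, s2⟩ := k2.pch hE h1 h2
  have hc : AnalyticAt ℂ (fun a : Cm m => (a, z p)) (E.π p) := analyticAt_id.prod analyticAt_const
  obtain ⟨-, -, s3, s4⟩ := s2.self_of_nhds
  rw [s1] at s3 s4
  refine ⟨fun a => σ (a, z p), s1, Tendsto.comp (g := σ) s3.le hc.continuousAt, ?_, fun f hf => ?_⟩
  · exact (hc.continuousAt.eventually s2).mono fun a h => h.1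
  · exact AnalyticAt.comp (g := fun s => f (σ s)) ((s4 f).1 hf) hc

theorem fr_hol {b : Cm m₁} (h : Fr C₁ b e₁) {p : C₁.X} (hp : p ∈ C₁.fib b) {z : C₁.X → ℂ}
    (h1 : C₁.hol z p) (h2 : Co C₁ z p) (j : Fin g) : C₁.hol (e₁ j z) p :=
  h.self_of_nhds.2 j p hp z h1 h2

/-- The matrix of the change of frames is holomorphic. -/
theorem an_rl (k1 : K1) (k2 : K2) (hE : E.IsStable) (h₁ : C₁.IsStable) (h₂ : C₂.IsStable)
    (m1 : Mor (fg E) (fg C₁) φ₁ Φ₁ y) (m2 : Mor (fg E) (fg C₂) φ₂ Φ₂ y)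
    (f1 : Fr C₁ (φ₁ y) e₁) (f2 : Fr C₂ (φ₂ y) e₂) {A : Cm m → Matrix (Fin g) (Fin g) ℂ}
    (hA : ∀ᶠ a in 𝓝 y, Rl E a Φ₁ Φ₂ e₁ e₂ (A a)) (p q : Fin g) :
    AnalyticAt ℂ (fun a => A a p q) y := by
  have b1 : BijOn Φ₁ (E.fib y) (C₁.fib (φ₁ y)) := k1.mem m1.2.2.1
  have b2 : BijOn Φ₂ (E.fib y) (C₂.fib (φ₂ y)) := k1.mem m2.2.2.1
  refine an_of_pr {v | ∃ x ∈ C₂.fib (φ₂ y), ∃ z, C₂.hol z x ∧ Co C₂ z x ∧ v = fun k => e₂ k z x}
    ?_ (fun c hc => ?_) p q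
  · rintro _ ⟨_, hx₀, z₂, a1, a2, rfl⟩
    obtain ⟨x, hx, rfl⟩ := b2.surjOn hx₀
    have n1 := k1.nf hE h₁ m1.2.2.1 x hx
    have n2 := k1.nf hE h₂ m2.2.2.1 x hx
    obtain ⟨z₁, a3, a4⟩ := k2.ex h₁ (n1.2.2.2.2.2 (n2.2.2.2.2.1 (k2.csp h₂ a2)))
    have c1 : Co E (fun q => z₁ (Φ₁ q)) x := (n1.2.2.1 _).1 a4
    have c2 : Co E (fun q => z₂ (Φ₂ q)) x := (n2.2.2.1 _).1 a2
    have d1 : E.hol (fun q => z₁ (Φ₁ q)) x := (m1.2.2.2 x hx).2 _ a3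
    have d2 : E.hol (fun q => z₂ (Φ₂ q)) x := (m2.2.2.2 x hx).2 _ a1
    obtain ⟨c, a5, a6⟩ := k2.drh hE d1 c1 d2
    have c0 : c x ≠ 0 := (k2.ne hE c1 c2.1 a6.self_of_nhds).1 c2
    obtain ⟨σ, s1, s2, s3, s4⟩ := ex_sec k2 hE d1 c1
    have hx' : E.π x = y := hx
    rw [hx'] at s1 s2 s3 s4
    refine ⟨fun a j => e₁ j z₁ (Φ₁ (σ a)) / c (σ a), fun a k => e₂ k z₂ (Φ₂ (σ a)),
      fun j => (s4 (fun q => e₁ j z₁ (Φ₁ q)) ((m1.2.2.2 x hx).2 _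
        (fr_hol f1 (b1.mapsTo hx) a3 a4 j))).div (s4 c a5) (by rw [s1]; exact c0),
      fun k => s4 (fun q => e₂ k z₂ (Φ₂ q)) ((m2.2.2.2 x hx).2 _
        (fr_hol f2 (b2.mapsTo hx) a1 a2 k)), by simp only [s1], ?_⟩
    filter_upwards [hA, s3, s2.eventually a6, s2.eventually (k2.ev hE d1 c1),
      s2.eventually (k2.ev hE d2 c2), s2.eventually ((k2.hc hE a5).eventually_ne c0)]
      with a r1 r2 r3 r4 r5 r6
    funext j
    rw [r1 _ r2 z₁ z₂ _ r4.2 r5.2 r3 j, mul_div_cancel_left₀ _ r6]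
    rfl
  · have hb := f2.self_of_nhds.1
    have h0 : Om C₂ (φ₂ y) fun _ _ => 0 := fun x hx =>
      ⟨fun _ _ _ _ _ _ => (mul_zero _).symm, fun _ _ _ _ _ _ => ⟨fun _ => 0,
        P269CV.fh_const h₂ 0, Eventually.of_forall fun _ => by simp⟩⟩
    refine (hb.2 _ h0).unique (fun x hx z hz => ?_) fun x hx z hz => by simp
    obtain ⟨w, a1, a2⟩ := k2.ex h₂ (k2.csp h₂ hz)
    obtain ⟨d, hd⟩ := P269CV.dr_exists h₂ hz a2.1
    have h3 := hc _ ⟨x, hx, w, a1, a2, rfl⟩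
    rw [← mul_zero d, ← h3, Finset.mul_sum]
    refine Finset.sum_congr rfl fun k _ => ?_
    rw [(hb.1 k x hx).1 z w d hz a2 hd]
    ring

/-- The Gram matrices of two frames. -/
theorem gram (k1 : K1) {G : Gm g} (hG : IsLam G) (hE : E.IsStable) (h₁ : C₁.IsStable)
    (h₂ : C₂.IsStable) {a : Cm m} (ha : a ∈ E.B) {b₁ : Cm m₁} {b₂ : Cm m₂}
    (i1 : Is (fg E) a (fg C₁) b₁ Φ₁) (i2 : Is (fg E) a (fg C₂) b₂ Φ₂) (f1 : Bas C₁ b₁ e₁)
    (f2 : Bas C₂ b₂ e₂) {A : Matrix (Fin g) (Fin g) ℂ} (hA : Rl E a Φ₁ Φ₂ e₁ e₂ A) :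
    G m₁ (fg C₁) b₁ e₁ = A * G m₂ (fg C₂) b₂ e₂ * Aᴴ := by
  have : Nonempty (fg E).X := ⟨(P269CK.fib_ne hE ha).some⟩
  have : T2Space (fg C₁).X := h₁.2.1
  have b1 := k1.mem i1
  have hi := b1.invOn_invFunOn
  have i3 := k1.comp (P269CK.Is.inv' i1 (P273SD.isCompact_fib hE ha) (fun i => i.elim) hi.1) i2
  refine hG.1 _ _ _ _ _ _ _ i3 e₁ e₂ A f1 f2 fun p z z' hz e j => ?_
  obtain ⟨x, hx, e1⟩ := b1.surjOn p.2
  have e2 : ∀ q ∈ E.fib a, z' (Φ₂ q) = z (Φ₁ q) := fun q hq => by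
    have h3 := e ⟨Φ₁ q, b1.mapsTo hq⟩
    simp only [hi.1 hq] at h3
    exact h3.symm
  have e3 : (fun q => z' (Φ₂ q)) =ᶠ[nf E x] fun q => z (Φ₁ q) := (P269CK.ev_mem hx).mono e2
  have c1 : Co E (fun q => z (Φ₁ q)) x := ((k1.nf hE h₁ i1 x hx).2.2.1 z).1 (e1 ▸ hz)
  have h4 := hA x hx z z' 1 c1 (P269CK.Co.congr c1 e3)
    (P269CK.Dr.congr (P269CK.Dr.refl _ x) e3 EventuallyEq.rfl) j
  rw [one_mul] at h4
  simp only [← e1, hi.1 hx]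
  exact h4

theorem gauge [Finite L₁] [Finite L₂] (hc : CHN) (k1 : K1) (k2 : K2) {G : Gm g} (hG : IsLam G)
    (hE : E.IsStable) (h₁ : C₁.IsStable) (h₂ : C₂.IsStable) (hy : y ∈ E.B)
    (m1 : ∀ᶠ a in 𝓝 y, Mor (fg E) (fg C₁) φ₁ Φ₁ a) (m2 : ∀ᶠ a in 𝓝 y, Mor (fg E) (fg C₂) φ₂ Φ₂ a)
    (f1 : Fr C₁ (φ₁ y) e₁) (f2 : Fr C₂ (φ₂ y) e₂)
    (hA : ∀ᶠ a in 𝓝 y, ∃ A, Rl E a Φ₁ Φ₂ e₁ e₂ A) (k : ℕ) :
    pb (jac φ₁ y) (chern (fun a => G m₁ (fg C₁) a e₁) k (φ₁ y)) =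
      pb (jac φ₂ y) (chern (fun a => G m₂ (fg C₂) a e₂) k (φ₂ y)) := by
  obtain ⟨A, hA⟩ := hA.choice
  have n1 := m1.self_of_nhds
  have n2 := m2.self_of_nhds
  obtain ⟨p1, s1⟩ := hG.2 L₁ m₁ C₁ h₁ _ n1.1 e₁ f1
  obtain ⟨p2, s2⟩ := hG.2 L₂ m₂ C₂ h₂ _ n2.1 e₂ f2
  have e : ∀ᶠ a in 𝓝 y, G m₁ (fg C₁) (φ₁ a) e₁ = A a * G m₂ (fg C₂) (φ₂ a) e₂ * (A a)ᴴ := by
    filter_upwards [m1, m2, hA, ev_B hE hy, n1.2.1.continuousAt.eventually f1,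
      n2.2.1.continuousAt.eventually f2] with a r1 r2 r3 r4 r5 r6
    exact gram k1 hG hE h₁ h₂ r4 r1.2.2.1 r2.2.2.1 r5.1 r6.1 r3
  have h0 : (A y).det ≠ 0 := fun h => p1.det_pos.ne' (by
    rw [e.self_of_nhds, Matrix.det_mul, Matrix.det_mul, h, zero_mul, zero_mul])
  rw [← hc.nat φ₂ y _ A _ k n2.2.1 (fun p q => (s2 p q).of_le two_le) p2.det_pos.ne'
    (an_rl k1 k2 hE h₁ h₂ n1 n2 f1 f2 hA) h0 e]
  exact (hc.nat φ₁ y _ (fun _ => 1) _ k n1.2.1 (fun p q => (s1 p q).of_le two_le) p1.det_pos.ne'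
    (fun _ _ => analyticAt_const) (by simp) (Eventually.of_forall fun a => by simp)).symm

theorem mor_fg (k1 : K1) (hE : E.IsStable) (hy : y ∈ E.B) :
    ∀ᶠ a in 𝓝 y, Mor (fg E) (fg E) (fun x => x) id a := by
  filter_upwards [ev_B hE hy] with a ha
  exact ⟨ha, analyticAt_id, k1.refl _ a, fun p _ => ⟨continuousAt_id, fun f hf => hf⟩⟩

theorem lam_eq [Finite L] (hT : TAU) (hc : CHN) (k1 : K1) (k2 : K2) {G : Gm g} (hG : IsLam G)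
    (hE : E.IsStable) (hy : y ∈ E.B) {e : Fin g → Df E} (he : Fr E y e) (k : ℕ) :
    lam G E y k = chern (fun a => G m (fg E) a e) k y := by
  have f1 : Fr E y (Classical.epsilon (Fr E y) : Fin g → Df E) := Classical.epsilon_spec ⟨e, he⟩
  have h := gauge hc k1 k2 hG hE hE hE hy (mor_fg k1 hE hy) (mor_fg k1 hE hy) f1 he
    ((f1.and he).mono fun a h => ex_rl (tb_id h.1.1) (tb_id h.2.1)) k
  rwa [hc.jid, hT.one, hT.one] at h

/-- Row LAM. -/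
theorem lam_row (hT : TAU) (hc : CHN) (k1 : K1) (k2 : K2) (hB : BASN) : LAM where
  eq hG hC b hb e he k := lam_eq hT hc k1 k2 hG hC hb he k
  gd := by
    intro L _ m g G C hG hC b hb ⟨e, he⟩ k
    obtain ⟨p1, s1⟩ := hG.2 L m C hC b hb e he
    refine Gd.congr (Gd.ch g k (fun a => G m (fg C) a e) s1 p1.det_pos.ne') ?_
    filter_upwards [ev_B hC hb, he.eventually_nhds] with a r1 r2
    exact lam_eq hT hc k1 k2 hG hC r1 r2 k
  nat := by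
    intro L L₁ L₂ _ _ m m₁ m₂ g G E C₁ C₂ φ₁ φ₂ Φ₁ Φ₂ hG hE h₁ h₂ y hy hs m1 m2 f1 f2 k
    have g1 := Classical.epsilon_spec f1
    have g2 := Classical.epsilon_spec f2
    refine gauge hc k1 k2 hG hE h₁ h₂ hy m1 m2 g1 g2 ?_ k
    filter_upwards [m1, m2, (k2.smo hE).mem_nhds ⟨hy, hs⟩,
      m1.self_of_nhds.2.1.continuousAt.eventually g1,
      m2.self_of_nhds.2.1.continuousAt.eventually g2] with a r1 r2 r3 r4 r5
    obtain ⟨e, he⟩ := hB _ _ _ _ _ E C₁ a _ Φ₁ _ hE h₁ r3.1 r3.2 r1.2.2.1 r4.1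
    obtain ⟨e', he'⟩ := hB _ _ _ _ _ E C₂ a _ Φ₂ _ hE h₂ r3.1 r3.2 r2.2.2.1 r5.1
    exact ex_rl he he'

end Vale.Agent.P269CN
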