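import Vale.Agent.P269C.Spec2
import Vale.Agent.P269CT.PB

/-!
P269, block C: the partition of unity at a smooth curve with one marked point forgotten.
-/

set_option autoImplicit false
set_option linter.all false

noncomputable section

namespace Vale.Agent.P269CN

open Set Filter Topology Vale.Agent.P273.H183 Vale.Agent.P272.K Vale.Agent.P269C
open Vale.Agent.P273.H948 Vale.Agent.P269CT

variable {L L' : Type} {m k n : ℕ}

section Count

variable {C' : Fam L k} {C : Fam L m} {E : Fam L n} {y : Cm k} {b : Cm m} {e : Cm n}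
  {R : C'.X → C.X}

/-- The map of the fibres. -/
def rf (h : FB C' y C b R) (p : C'.fib y) : C.fib b := ⟨R p, h.bij.mapsTo p.2⟩

theorem rf_inj (h : FB C' y C b R) : Function.Injective (rf h) := fun p q e =>
  Subtype.ext (h.bij.injOn p.2 q.2 (congrArg Subtype.val e))

theorem rf_surj (h : FB C' y C b R) : Function.Surjective (rf h) := by
  intro q
  obtain ⟨p, hp, e⟩ := h.bij.surjOn q.2
  exact ⟨⟨p, hp⟩, Subtype.ext e⟩

theorem rf_map (h : FB C' y C b R) (p : C'.fib y) : map (rf h) (𝓝 p) = 𝓝 (rf h p) := by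
  refine Filter.map_injective Subtype.val_injective ?_
  have h1 := h.nf p p.2
  rw [nf_eq p.2, nf_eq (h.bij.mapsTo p.2), ← map_nhds_subtype_val p] at h1
  rw [map_nhds_subtype_val (rf h p), Filter.map_map]
  rw [Filter.map_map] at h1
  exact h1

/-- Composition with the map of the fibres preserves isomorphisms. -/
theorem iso_iff (h : FB C' y C b R) (hs : ∀ i, C'.s i y ∈ C'.fib y ∧ R (C'.s i y) = C.s i b)
    (Θ : C.fib b → E.X) : Θ ∘ rf h ∈ Iso C' y E e ↔ Θ ∈ Iso C b E e := by
  classical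
  have hev : ∀ p : C'.fib y, ∀ᶠ q in P269C.nf C' p, q ∈ C'.fib y := fun p => by
    rw [nf_eq p.2]; exact self_mem_nhdsWithin
  constructor
  · rintro ⟨h1, h2, h3, h4, h5⟩
    refine ⟨continuous_iff_continuousAt.2 fun q => ?_, h2.of_comp_right (rf_surj h), ?_, ?_, ?_⟩
    · obtain ⟨p, rfl⟩ := rf_surj h q
      rw [ContinuousAt, ← rf_map h p, tendsto_map'_iff]
      exact h1.continuousAt
    · rw [← h3, (rf_surj h).range_comp]
    · intro i q hq
      have h6 : q = rf h ⟨_, (hs i).1⟩ := Subtype.ext (hq.trans (hs i).2.symm)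
      rw [h6]
      exact h4 i _ rfl
    · intro q f f' hf
      obtain ⟨p, rfl⟩ := rf_surj h q
      exact (h.fh p.2 EventuallyEq.rfl).symm.trans
        (h5 p (fun w => f (R w)) f' fun w => hf (rf h w))
  · rintro ⟨h1, h2, h3, h4, h5⟩
    refine ⟨h1.comp (continuous_iff_continuousAt.2 fun p => (rf_map h p).le), h2.comp (rf_inj h),
      ?_, ?_, ?_⟩
    · rw [← h3, (rf_surj h).range_comp]
    · intro i p hp
      exact h4 i _ (by rw [← (hs i).2, ← hp]; rfl)
    · intro p f f' hf
      let f₁ : C.X → ℂ := fun q => if hq : q ∈ C.fib b then f' (Θ ⟨q, hq⟩) else 0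
      have h6 : ∀ q : C.fib b, f₁ q = f' (Θ q) := fun q => dif_pos q.2
      refine (h.fh (f' := f₁) p.2 ?_).trans (h5 (rf h p) f₁ f' h6)
      filter_upwards [hev p] with q hq
      exact (hf ⟨q, hq⟩).trans (h6 (rf h ⟨q, hq⟩)).symm

/-- Isomorphic fibres have the same number of isomorphisms to a third fibre. -/
theorem ncard_iso (h : FB C' y C b R) (hs : ∀ i, C'.s i y ∈ C'.fib y ∧ R (C'.s i y) = C.s i b) :
    (Iso C' y E e).ncard = (Iso C b E e).ncard := by
  have hi : Function.Injective fun Θ : C.fib b → E.X => Θ ∘ rf h := (rf_surj h).injective_comp_right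
  rw [← Set.ncard_image_of_injective (Iso C b E e) hi]
  congr 1
  ext Ψ
  constructor
  · intro hΨ
    have h1 : (Ψ ∘ Function.surjInv (rf_surj h)) ∘ rf h = Ψ := by
      funext p
      exact congrArg Ψ (rf_inj h (Function.surjInv_eq (rf_surj h) _))
    exact ⟨_, (iso_iff h hs _).1 (h1.symm ▸ hΨ), h1⟩
  · rintro ⟨Θ, hΘ, rfl⟩
    exact (iso_iff h hs Θ).2 hΘ

end Count

section Pull

variable {C : Fam L m} {W : Set (Cm k)} {φ : Cm k → Cm m} {P : L' → Cm k → C.X}
  {hne : Nonempty (Tot C W φ)}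

/-- Smooth points pull back to smooth points. -/
theorem sp_pbs (h : PD C W φ) (q : Tot C W φ) (hq : Sp C q.1.2) : Sp (pbs C W φ P hne) q := by
  intro U x y t hU hqU
  obtain ⟨U₁, u, v, t₁, hp, h1⟩ := h.st.2.2.2.2.1 q.1.2
  have h2 : h.S.SmoothAt q :=
    ⟨_, _, _, _, hp, tot_model h.op h.an (mo_of h1), hq U₁ u v t₁ h1 hp⟩
  exact h2.all hqU (mo_of (C := pbs C W φ P hne) hU)

/-- A fibre with marks, as a family over a point. -/
def one (C : Fam L m) (x : Cm m) (P : L' → C.X) (hne : Nonempty (Tot C univ fun _ : Cm 0 => x)) :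
    Fam L' 0 := pbs C univ (fun _ => x) (fun i _ => P i) hne

theorem pd_one (hC : C.IsStable) {x : Cm m} (hx : x ∈ C.B) : PD C univ fun _ : Cm 0 => x :=
  ⟨hC, isOpen_univ, fun _ _ => analyticAt_const, fun _ _ => hx⟩

theorem ne_one (hC : C.IsStable) {x : Cm m} (hx : x ∈ C.B) :
    Nonempty (Tot C univ fun _ : Cm 0 => x) := by
  obtain ⟨p, hp⟩ := (hC.2.2.2.2.2 x hx).1.nonempty
  exact ⟨⟨(0, p), mem_univ _, hp⟩⟩

theorem one_s {x : Cm m} {P : L' → C.X} {hne : Nonempty (Tot C univ fun _ : Cm 0 => x)}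
    (hP : ∀ i, C.π (P i) = x) (i : L') (y : Cm 0) : ((one C x P hne).s i y).1 = (y, P i) :=
  tPt_val (mem_univ y) (hP i)

/-- The fibre is a stable curve if it has no vector fields. -/
theorem one_stable (hC : C.IsStable) {x : Cm m} (hx : x ∈ C.B) {P : L' → C.X}
    {hne : Nonempty (Tot C univ fun _ : Cm 0 => x)} (hP : ∀ i, C.π (P i) = x)
    (hi : Function.Injective P) (hs : ∀ i, Sp C (P i))
    (hv : ∀ D, (⟨C.B, C.X, C.π, C.hol, fun i _ => P i⟩ : Fam L' m).IsField x D →
      ∀ p ∈ C.fib x, ∀ f, C.hol f p → D f p = 0) : (one C x P hne).IsStable := by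
  have h := pd_one hC hx
  refine ⟨isOpen_univ, h.S.t2, fun _ => mem_univ _, h.F.proper, fun q => ?_,
    fun y hy => ⟨h.F.conn y hy, fun i => ⟨?_, ?_, fun f _ => ?_, fun j e => ?_, ?_⟩, ?_⟩⟩
  · obtain ⟨U, u, v, t, hp, h1⟩ := h.S.model q
    exact ⟨U, u, v, t, hp, h1.isChart⟩
  · exact Subsingleton.elim _ _
  · exact continuous_of_discreteTopology.continuousAt
  · have e : (fun b' => f ((one C x P hne).s i b')) = fun _ => f ((one C x P hne).s i y) := by
      funext b'; rw [Subsingleton.elim b' y]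
    rw [e]; exact analyticAt_const
  · have e1 := congrArg Subtype.val e
    rw [one_s hP, one_s hP] at e1
    exact hi (congrArg Prod.snd e1)
  · refine sp_pbs h _ ?_
    rw [one_s hP]; exact hs i
  · have h1 := h.fb (fun i _ => P i) hne hy
    have h2 : FB (one C x P hne) y (⟨C.B, C.X, C.π, C.hol, fun i _ => P i⟩ : Fam L' m) x
        fun q => q.1.2 := ⟨h1.bij, h1.nf, h1.pull, h1.push⟩
    refine h2.noField (fun i => ⟨i, Subsingleton.elim _ _, ?_⟩) hv
    exact congrArg Prod.snd (one_s hP i y)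

end Pull

/-- Row PART. -/
theorem part (hN : NOVF) (hB : BASN) : PART := by
  intro g D m L _ A C hC x hx hsm hbas hst
  have hm := (hC.2.2.2.2.2 x hx).2.1
  have hne := ne_one hC hx
  have hP : ∀ i : L, C.π (C.s (some i) x) = x := fun i => (hm _).1
  have hst0 : (one C x (fun i : L => C.s (some i) x) hne).IsStable :=
    one_stable hC hx hP (fun i j e => Option.some_injective _ ((hm _).2.2.2.1 _ e))
      (fun i => hsm _ (hP i))
      (hN L (Option L) m g some C (Option.some_injective _) hC x hx hsm hbas hst)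
  have h1 := (pd_one hC hx).fb (fun (i : L) _ => C.s (some i) x) hne (mem_univ (0 : Cm 0))
  have h2 : FB (one C x (fun i : L => C.s (some i) x) hne) 0 (sub some C) x fun q => q.1.2 :=
    ⟨h1.bij, h1.nf, h1.pull, h1.push⟩
  have h3 : FB (fg (one C x (fun i : L => C.s (some i) x) hne)) 0 (fg C) x fun q => q.1.2 :=
    ⟨h1.bij, h1.nf, h1.pull, h1.push⟩
  obtain ⟨e, he⟩ := hbas
  obtain ⟨e₀, he₀, -⟩ := hB L (Option L) 0 m g (one C x (fun i : L => C.s (some i) x) hne) C 0 x
    (fun q => q.1.2) e hst0 hC (mem_univ _)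
    (fun q _ => sp_pbs (pd_one hC hx) q (hsm _ q.2.2)) (h3.iso fun i => i.elim) he
  rw [← A.one 0 _ hst0 0 (mem_univ _) ⟨e₀, he₀⟩]
  refine Finset.sum_congr rfl fun a _ => finsum_congr fun b => ?_
  rw [ncard_iso h2 fun i => ⟨Subsingleton.elim _ _, congrArg Prod.snd (one_s hP i 0)⟩]

end Vale.Agent.P269CN
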